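import Crest.Agent.N337.Defs

/-!
# Row 337, asymptotics of the ideal density: basics (helper37)

* `eps_eq`, `continuous_eps`, `eps_lower` (`c |p|² ≤ ε` on the cube), `eps_le_quad`
* `coup_nn : Coup (nnCoupling d)`, `eps_nn`, `nInf_nn`
* Gaussian integrals, `tendsto_zeta` (Tannery), `II`, `hasSum_II`
-/

set_option autoImplicit false

namespace Crest.Agent.N337.Asy

open Crest.MathPhysics.SpinModel Filter Topology MeasureTheory Real

variable {d : ℕ}

/-- the Brillouin zone -/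
abbrev cube (d : ℕ) : Set (Fin d → ℝ) := Set.pi Set.univ fun _ : Fin d => Set.Icc (-π) π

lemma measurableSet_cube (d : ℕ) : MeasurableSet (cube d) :=
  MeasurableSet.univ_pi fun _ => measurableSet_Icc

lemma isCompact_cube (d : ℕ) : IsCompact (cube d) := isCompact_univ_pi fun _ => isCompact_Icc

lemma abs_le_of_mem_cube {p : Fin d → ℝ} (hp : p ∈ cube d) (a : Fin d) : |p a| ≤ π :=
  abs_le.2 (hp a (Set.mem_univ a))

lemma spinVal_pos {n : ℕ} (hn : 1 ≤ n) : 0 < spinVal n := by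
  have : (1 : ℝ) ≤ n := by exact_mod_cast hn
  unfold spinVal; linarith

lemma finsum_eq {J : (Fin d → ℤ) → ℝ} (hJ : Coup J) (f : (Fin d → ℤ) → ℝ) :
    ∑ᶠ z, J z * f z = ∑ z ∈ hJ.fin.toFinset, J z * f z :=
  finsum_eq_sum_of_support_subset _ fun z hz => by
    simpa using left_ne_zero_of_mul hz

lemma eps_eq (n : ℕ) {J : (Fin d → ℤ) → ℝ} (hJ : Coup J) (p : Fin d → ℝ) : eps n J p =
    spinVal n * ∑ z ∈ hJ.fin.toFinset, J z * (1 - cos (∑ a, p a * (z a : ℝ))) := by
  rw [eps, finsum_eq hJ]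

lemma continuous_eps (n : ℕ) {J : (Fin d → ℤ) → ℝ} (hJ : Coup J) : Continuous (eps n J) := by
  rw [funext (eps_eq n hJ)]; fun_prop

lemma eps_nonneg (n : ℕ) {J : (Fin d → ℤ) → ℝ} (hJ : Coup J) (p : Fin d → ℝ) : 0 ≤ eps n J p := by
  rw [eps_eq n hJ]
  exact mul_nonneg (by unfold spinVal; positivity) (Finset.sum_nonneg fun z _ =>
    mul_nonneg (hJ.nonneg z) (sub_nonneg.2 (cos_le_one _)))

lemma one_sub_cos_add (x y : ℝ) : 1 - cos (x + y) ≤ 2 * (1 - cos x) + 2 * (1 - cos y) := by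
  rw [cos_add]
  nlinarith [sin_sq_add_cos_sq x, sin_sq_add_cos_sq y, sq_nonneg (sin x - sin y),
    sq_nonneg (cos x + cos y - 2), mul_nonneg (sub_nonneg.2 (cos_le_one x))
      (sub_nonneg.2 (cos_le_one y))]

lemma exists_one_sub_cos_le {n : ℕ} (hn : 1 ≤ n) {J : (Fin d → ℤ) → ℝ} (hJ : Coup J)
    (z : Fin d → ℤ) : ∃ K : ℝ, 0 ≤ K ∧ ∀ p : Fin d → ℝ,
      1 - cos (∑ a, p a * (z a : ℝ)) ≤ K * eps n J p := by
  have hz : z ∈ AddSubgroup.closure (Function.support J) := by rw [hJ.gen]; trivial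
  have hS := spinVal_pos hn
  induction hz using AddSubgroup.closure_induction with
  | mem z hz =>
    have hz0 : 0 < J z := lt_of_le_of_ne (hJ.nonneg z) (Ne.symm hz)
    refine ⟨(spinVal n * J z)⁻¹, by positivity, fun p => ?_⟩
    rw [le_inv_mul_iff₀ (by positivity), eps_eq n hJ, mul_assoc]
    gcongr
    exact Finset.single_le_sum (f := fun z : Fin d → ℤ => J z * (1 - cos (∑ a, p a * (z a : ℝ))))
      (fun z _ => mul_nonneg (hJ.nonneg z) (sub_nonneg.2 (cos_le_one _))) (by simpa using hz)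
  | zero => exact ⟨0, le_rfl, fun p => by simp⟩
  | add x y _ _ hx hy =>
    obtain ⟨K, hK, hx⟩ := hx
    obtain ⟨K', hK', hy⟩ := hy
    refine ⟨2 * K + 2 * K', by positivity, fun p => ?_⟩
    have := one_sub_cos_add (∑ a, p a * (x a : ℝ)) (∑ a, p a * (y a : ℝ))
    simp only [Pi.add_apply, Int.cast_add, mul_add, Finset.sum_add_distrib]
    linarith [hx p, hy p]
  | neg x _ hx =>
    obtain ⟨K, hK, hx⟩ := hx
    refine ⟨K, hK, fun p => ?_⟩
    simpa only [Pi.neg_apply, Int.cast_neg, mul_neg, Finset.sum_neg_distrib, cos_neg] using hx p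

lemma sum_single (p : Fin d → ℝ) (a : Fin d) (c : ℤ) :
    ∑ b, p b * ((Pi.single a c : Fin d → ℤ) b : ℝ) = p a * c := by
  rw [Finset.sum_eq_single a] <;> simp +contextual

/-- quadratic lower bound on the cube -/
theorem eps_lower {n : ℕ} (hn : 1 ≤ n) {J : (Fin d → ℤ) → ℝ} (hJ : Coup J) :
    ∃ c : ℝ, 0 < c ∧ ∀ p ∈ cube d, c * ∑ a, p a ^ 2 ≤ eps n J p := by
  choose K hK0 hK using fun a : Fin d => exists_one_sub_cos_le hn hJ (Pi.single a 1)
  have hs : 0 ≤ ∑ a, K a := Finset.sum_nonneg fun a _ => hK0 a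
  refine ⟨2 / π ^ 2 / (∑ a, K a + 1), by positivity, fun p hp => ?_⟩
  have h1 : 2 / π ^ 2 * ∑ a, p a ^ 2 ≤ (∑ a, K a) * eps n J p := by
    rw [Finset.mul_sum, Finset.sum_mul]
    refine Finset.sum_le_sum fun a _ => le_trans ?_ (hK a p)
    rw [sum_single]
    have := cos_le_one_sub_mul_cos_sq (abs_le_of_mem_cube hp a)
    simp only [Int.cast_one, mul_one]
    linarith
  rw [div_mul_eq_mul_div, div_le_iff₀ (by positivity)]
  nlinarith [eps_nonneg n hJ p]

/-! ### nearest neighbours -/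

lemma sum_abs_eq_one_iff (z : Fin d → ℤ) :
    ∑ a, |z a| = 1 ↔ ∃ a, z = Pi.single a 1 ∨ z = Pi.single a (-1) := by
  constructor
  · intro h
    obtain ⟨a, -, ha⟩ := Finset.exists_ne_zero_of_sum_ne_zero (h.trans_ne one_ne_zero)
    rw [← Finset.add_sum_erase _ _ (Finset.mem_univ a)] at h
    have h0 : 0 ≤ ∑ b ∈ Finset.univ.erase a, |z b| := Finset.sum_nonneg fun b _ => abs_nonneg _
    have h1 : 0 < |z a| := lt_of_le_of_ne (abs_nonneg _) ha.symm
    have h2 : ∑ b ∈ Finset.univ.erase a, |z b| = 0 := by omega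
    rw [Finset.sum_eq_zero_iff_of_nonneg fun b _ => abs_nonneg _] at h2
    have h3 : z = Pi.single a (z a) := by
      funext b
      by_cases hb : b = a
      · simp [hb]
      · simpa [hb] using h2 b (by simpa using hb)
    refine ⟨a, ?_⟩
    rcases eq_or_eq_neg_of_abs_eq (by omega : |z a| = 1) with h4 | h4
    · left; rw [h3, h4]
    · right; rw [h3, h4]
  · rintro ⟨a, rfl | rfl⟩ <;> rw [Finset.sum_eq_single a] <;> simp +contextual

/-- the unit vectors -/
def units (d : ℕ) : Finset (Fin d → ℤ) :=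
  Finset.univ.image (fun a => Pi.single a 1) ∪ Finset.univ.image (fun a => Pi.single a (-1))

lemma mem_units {z : Fin d → ℤ} : z ∈ units d ↔ ∑ a, |z a| = 1 := by
  rw [sum_abs_eq_one_iff]
  simp only [units, Finset.mem_union, Finset.mem_image, Finset.mem_univ,
    true_and, exists_or, eq_comm]

lemma support_nn : Function.support (nnCoupling d) = units d := by
  ext z; simp [nnCoupling, mem_units]

theorem coup_nn (d : ℕ) : Coup (nnCoupling d) where
  zero := by simp [nnCoupling]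
  symm z := by simp [nnCoupling]
  nonneg z := by unfold nnCoupling; split_ifs <;> norm_num
  fin := by rw [support_nn]; exact Finset.finite_toSet _
  gen := by
    rw [eq_top_iff]
    intro z _
    rw [← Finset.univ_sum_single z]
    refine sum_mem fun a _ => ?_
    have : (Pi.single a (z a) : Fin d → ℤ) = z a • Pi.single a 1 := by
      rw [← Pi.single_smul']; simp
    rw [this]
    refine zsmul_mem (AddSubgroup.subset_closure ?_) _
    rw [support_nn, Finset.mem_coe, mem_units, sum_abs_eq_one_iff]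
    exact ⟨a, Or.inl rfl⟩

lemma sum_units (f : (Fin d → ℤ) → ℝ) :
    ∑ z ∈ units d, f z = ∑ a, (f (Pi.single a 1) + f (Pi.single a (-1))) := by
  have hinj : ∀ c : ℤ, c ≠ 0 → Function.Injective fun a : Fin d => (Pi.single a c : Fin d → ℤ) := by
    intro c hc a b hab
    by_contra hne
    have := congrFun hab a
    simp [hne, hc] at this
  rw [units, Finset.sum_union, Finset.sum_image (hinj 1 one_ne_zero).injOn,
    Finset.sum_image (hinj (-1) (by norm_num)).injOn, Finset.sum_add_distrib]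
  rw [Finset.disjoint_left]
  intro z h1 h2
  obtain ⟨a, -, rfl⟩ := Finset.mem_image.1 h1
  obtain ⟨b, -, hb⟩ := Finset.mem_image.1 h2
  have := congrFun hb a
  by_cases hab : a = b <;> simp [hab] at this

lemma eps_nn (d n : ℕ) (p : Fin d → ℝ) : eps n (nnCoupling d) p = magnonEnergy d n p := by
  rw [eps, finsum_eq_sum_of_support_subset (s := units d) _ fun z hz => by
    rw [← support_nn]; exact left_ne_zero_of_mul hz]
  rw [Finset.sum_congr rfl fun z hz => by rw [nnCoupling, if_pos (mem_units.1 hz), one_mul],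
    sum_units, magnonEnergy]
  simp only [sum_single, Int.cast_one, mul_one, Int.cast_neg, mul_neg, cos_neg, ← two_mul,
    ← Finset.mul_sum]
  ring

lemma nInf_nn (d n : ℕ) (β : ℝ) : nInf n (nnCoupling d) β 0 = idealMagnonDensity d n β := by
  simp only [nInf, idealMagnonDensity, eps_nn, add_zero]

/-! ### Gaussian integrals -/

lemma exp_neg_sum_sq (c : ℝ) (q : Fin d → ℝ) :
    exp (-(c * ∑ a, q a ^ 2)) = ∏ a, exp (-c * q a ^ 2) := by
  rw [← exp_sum, ← Finset.mul_sum, neg_mul]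

lemma integrable_gauss {c : ℝ} (hc : 0 < c) :
    Integrable fun q : Fin d → ℝ => exp (-(c * ∑ a, q a ^ 2)) := by
  simp only [exp_neg_sum_sq]
  exact Integrable.fintype_prod (f := fun _ x => exp (-c * x ^ 2))
    fun _ => integrable_exp_neg_mul_sq hc

lemma integral_gauss (c : ℝ) :
    ∫ q : Fin d → ℝ, exp (-(c * ∑ a, q a ^ 2)) = √(π / c) ^ d := by
  simp only [exp_neg_sum_sq]
  rw [integral_fintype_prod_volume_eq_pow (fun x => exp (-c * x ^ 2)), integral_gaussian,
    Fintype.card_fin]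

open Matrix in
open scoped MatrixOrder in
lemma integral_gauss_mat {D : Matrix (Fin d) (Fin d) ℝ} (hD : D.PosDef) :
    ∫ q : Fin d → ℝ, exp (-(q ⬝ᵥ D *ᵥ q)) = √π ^ d / √D.det := by
  obtain ⟨B, hB⟩ := CStarAlgebra.nonneg_iff_eq_star_mul_self.1 hD.posSemidef.nonneg
  have hdet : D.det = B.det ^ 2 := by
    rw [hB, det_mul, star_eq_conjTranspose, det_conjTranspose, star_trivial, sq]
  have hB0 : B.det ≠ 0 := fun h => hD.det_pos.ne' (by rw [hdet, h]; simp)
  have h1 : ∀ q : Fin d → ℝ, q ⬝ᵥ D *ᵥ q = 1 * ∑ a, (toLin' B q) a ^ 2 := by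
    intro q
    rw [hB, ← mulVec_mulVec, star_eq_conjTranspose, conjTranspose_eq_transpose_of_trivial,
      dotProduct_mulVec, vecMul_transpose, toLin'_apply, one_mul]
    simp only [dotProduct, sq]
  simp only [h1]
  have h2 := integral_map (μ := volume) (φ := toLin' B)
    (f := fun x : Fin d → ℝ => exp (-(1 * ∑ a, x a ^ 2)))
    (LinearMap.continuous_of_finiteDimensional _).aemeasurable
    (Continuous.aestronglyMeasurable (by fun_prop))
  rw [← h2, map_matrix_volume_pi_eq_smul_volume_pi hB0, integral_smul_measure, integral_gauss,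
    ENNReal.toReal_ofReal (abs_nonneg _), hdet, sqrt_sq_eq_abs, abs_inv, div_one, smul_eq_mul,
    div_eq_inv_mul]

/-! ### zeta values and Tannery -/

lemma summable_zeta {α : ℝ} (hα : 1 < α) : Summable fun j : ℕ => ((j : ℝ) + 1) ^ (-α) := by
  have := (summable_nat_add_iff 1).2 (summable_nat_rpow.2 (neg_lt_neg hα))
  simpa using this

lemma hasSum_zeta {α : ℝ} (hα : 1 < α) :
    HasSum (fun j : ℕ => ((j : ℝ) + 1) ^ (-α)) (riemannZeta α).re := by
  have h : riemannZeta α = ((∑' j : ℕ, ((j : ℝ) + 1) ^ (-α) : ℝ) : ℂ) := by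
    rw [zeta_eq_tsum_one_div_nat_add_one_cpow (by simpa using hα), Complex.ofReal_tsum]
    refine tsum_congr fun j => ?_
    rw [Complex.ofReal_cpow (by positivity), Complex.ofReal_neg, Complex.cpow_neg, one_div]
    push_cast
    rfl
  rw [h, Complex.ofReal_re]
  exact (summable_zeta hα).hasSum

lemma hasSum_zeta3 : HasSum (fun j : ℕ => ((j : ℝ) + 1) ^ (-(3 / 2 : ℝ)))
    (riemannZeta (3 / 2)).re := by
  have := hasSum_zeta (α := 3 / 2) (by norm_num)
  rwa [show ((3 / 2 : ℝ) : ℂ) = 3 / 2 by push_cast; rfl] at this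

lemma hasSum_zeta5 : HasSum (fun j : ℕ => ((j : ℝ) + 1) ^ (-(5 / 2 : ℝ)))
    (riemannZeta (5 / 2)).re := by
  have := hasSum_zeta (α := 5 / 2) (by norm_num)
  rwa [show ((5 / 2 : ℝ) : ℂ) = 5 / 2 by push_cast; rfl] at this

lemma tendsto_zeta {α ζ : ℝ} (hζ : HasSum (fun j : ℕ => ((j : ℝ) + 1) ^ (-α)) ζ) {R : ℝ → ℝ}
    {L : ℝ} (h : Tendsto R atTop (𝓝 L)) :
    Tendsto (fun s => ∑' j : ℕ, ((j : ℝ) + 1) ^ (-α) * R ((j + 1) * s)) atTop (𝓝 (ζ * L)) := by
  rw [← (hζ.mul_right L).tsum_eq]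
  refine tendsto_tsum_of_dominated_convergence (hζ.summable.mul_right (|L| + 1))
    (fun j => (h.comp (tendsto_id.const_mul_atTop (by positivity))).const_mul _) ?_
  obtain ⟨s₀, hs₀⟩ := eventually_atTop.1 (h.abs.eventually_le_const (lt_add_one |L|))
  filter_upwards [eventually_ge_atTop s₀, eventually_ge_atTop 0] with s hs hs0 j
  rw [norm_mul, norm_of_nonneg (by positivity)]
  gcongr
  refine hs₀ _ (hs.trans ?_)
  have : (0 : ℝ) ≤ j := Nat.cast_nonneg j
  nlinarith

/-! ### the expansion of the Bose function -/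

/-- `(2π)^{-d} ∫ e^{-t ε}` -/
noncomputable def II (e : (Fin d → ℝ) → ℝ) (t : ℝ) : ℝ :=
  ∫ p in cube d, exp (-(t * e p)) / (2 * π) ^ d

lemma II_nonneg (e : (Fin d → ℝ) → ℝ) (t : ℝ) : 0 ≤ II e t :=
  integral_nonneg fun p => by positivity

lemma II_le {e : (Fin d → ℝ) → ℝ} (he : Continuous e) {c : ℝ} (hc : 0 < c)
    (h : ∀ p ∈ cube d, c * ∑ a, p a ^ 2 ≤ e p) {t : ℝ} (ht : 0 < t) :
    II e t ≤ √(π / (t * c)) ^ d / (2 * π) ^ d := by
  have hi := (integrable_gauss (d := d) (mul_pos ht hc)).div_const ((2 * π) ^ d)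
  rw [← integral_gauss, ← integral_div]
  refine le_trans (setIntegral_mono_on
    (Continuous.continuousOn (by fun_prop) |>.integrableOn_compact (isCompact_cube d))
    hi.integrableOn (measurableSet_cube d) fun p hp => ?_)
    (setIntegral_le_integral hi (ae_of_all _ fun p => by positivity))
  have := h p hp
  rw [mul_assoc t]
  gcongr

lemma sqrt_cube_eq {t : ℝ} (ht : 0 < t) (c : ℝ) :
    √(π / (t * c)) ^ 3 = √(π / c) ^ 3 * t ^ (-(3 / 2 : ℝ)) := by
  rw [mul_comm t c, ← div_div, sqrt_div' _ ht.le, div_pow, sqrt_eq_rpow t, ← rpow_natCast,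
    ← rpow_natCast (t ^ _), ← rpow_mul ht.le, rpow_neg ht.le, div_eq_mul_inv]
  norm_num

lemma hasSum_bose {x : ℝ} (hx : 0 < x) :
    HasSum (fun j : ℕ => exp (-((j + 1) * x))) (1 / (exp x - 1)) := by
  have h1 : exp (-x) < 1 := exp_lt_one_iff.2 (by linarith)
  have h2 := (hasSum_geometric_of_lt_one (exp_pos _).le h1).mul_left (exp (-x))
  have e1 : ∀ j : ℕ, exp (-((j + 1) * x)) = exp (-x) * exp (-x) ^ j := fun j => by
    rw [← exp_nat_mul, ← exp_add]; congr 1; ring
  have e2 : 1 / (exp x - 1) = exp (-x) * (1 - exp (-x))⁻¹ := by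
    have h3 : exp x - 1 ≠ 0 := (sub_pos.2 (one_lt_exp_iff.2 hx)).ne'
    have h4 : exp x ≠ 0 := (exp_pos x).ne'
    rw [exp_neg]
    field_simp
  simpa only [e1, e2] using h2

theorem hasSum_II {e : (Fin 3 → ℝ) → ℝ} (he : Continuous e) {c : ℝ} (hc : 0 < c)
    (h : ∀ p ∈ cube 3, c * ∑ a, p a ^ 2 ≤ e p) {β : ℝ} (hβ : 0 < β) :
    HasSum (fun j : ℕ => II e ((j + 1) * β))
      (∫ p in cube 3, 1 / ((2 * π) ^ 3 * (exp (β * e p) - 1))) := by
  have h1 := hasSum_integral_of_summable_integral_norm (μ := volume.restrict (cube 3))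
    (F := fun (j : ℕ) p => exp (-((j + 1) * β * e p)) / (2 * π) ^ 3)
    (fun j => Continuous.continuousOn (by fun_prop) |>.integrableOn_compact (isCompact_cube 3)) (by
      refine Summable.of_nonneg_of_le (fun j => integral_nonneg fun p => norm_nonneg _)
        (fun j => ?_) ((hasSum_zeta3.summable.mul_left
          (√(π / c) ^ 3 * β ^ (-(3 / 2 : ℝ)) / (2 * π) ^ 3)))
      have h2 := II_le he hc h (t := (j + 1) * β) (by positivity)
      rw [sqrt_cube_eq (by positivity) c, mul_rpow (by positivity) hβ.le] at h2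
      refine le_trans (le_of_eq ?_) (h2.trans (le_of_eq (by ring)))
      exact integral_congr_ae (ae_of_all _ fun p => norm_of_nonneg (by positivity)))
  suffices H : ∫ p in cube 3, 1 / ((2 * π) ^ 3 * (exp (β * e p) - 1)) =
      ∫ p in cube 3, ∑' j : ℕ, exp (-((j + 1) * β * e p)) / (2 * π) ^ 3 by rw [H]; exact h1
  refine setIntegral_congr_ae (measurableSet_cube 3) ?_
  have h0 : ∀ᵐ p : Fin 3 → ℝ, p ≠ 0 := by
    simp [ae_iff]
  filter_upwards [h0] with p hp0 hp
  have h3 : 0 < ∑ a, p a ^ 2 := by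
    obtain ⟨a, ha⟩ := Function.ne_iff.1 hp0
    exact Finset.sum_pos' (fun a _ => sq_nonneg _) ⟨a, Finset.mem_univ a, pow_pos (abs_pos.2 ha) 2
      |>.trans_eq (sq_abs _)⟩
  have h4 : 0 < β * e p := mul_pos hβ ((mul_pos hc h3).trans_le (h p hp))
  have h5 := ((hasSum_bose h4).div_const ((2 * π) ^ 3)).tsum_eq
  simp only [mul_assoc]
  rw [h5, div_div, mul_comm]

end Crest.Agent.N337.Asy
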