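import Crest.Agent.N337.Asy.Two

/-!
# Row 337: the bodies of S0524, S0525, S0526 from `ThermoStmt` and `SandStmt` (helper37)
-/

set_option autoImplicit false

namespace Crest.Agent.N337.Asy

open Crest.MathPhysics.SpinModel Filter Topology Real

lemma tendsto_eta : Tendsto (fun β : ℝ => β ^ (-(5 / 4 : ℝ))) atTop (𝓝 0) :=
  tendsto_rpow_neg_atTop (by norm_num)

lemma tendsto_one_add : Tendsto (fun β : ℝ => 1 + β ^ (-(5 / 4 : ℝ))) atTop (𝓝 1) := by
  simpa using tendsto_eta.const_add 1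

lemma tendsto_one_sub : Tendsto (fun β : ℝ => 1 - β ^ (-(5 / 4 : ℝ))) atTop (𝓝 1) := by
  simpa using tendsto_eta.const_sub 1

lemma tendsto_rpow_one {u : ℝ → ℝ} (hu : Tendsto u atTop (𝓝 1)) (α : ℝ) :
    Tendsto (fun β => u β ^ α) atTop (𝓝 1) := by
  simpa using hu.rpow_const (p := α) (Or.inl one_ne_zero)

lemma tendsto_mul_sub_one {f : ℝ → ℝ} (hf : DifferentiableAt ℝ f 0) (h0 : f 0 = 1) :
    Tendsto (fun β : ℝ => β * (f (β ^ (-(5 / 4 : ℝ))) - 1)) atTop (𝓝 0) := by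
  have h1 := (Asymptotics.isBigO_refl (fun β : ℝ => β) atTop).mul
    (hf.isBigO_sub.comp_tendsto tendsto_eta)
  rw [← h0]
  refine h1.trans_tendsto ((tendsto_rpow_neg_atTop (y := 1 / 4) (by norm_num)).congr' ?_)
  filter_upwards [eventually_gt_atTop 0] with β hβ
  simp only [Function.comp, sub_zero]
  nth_rewrite 2 [← rpow_one β]
  rw [← rpow_add hβ]
  norm_num

lemma lead_shift {N u : ℝ → ℝ} {L : ℝ} (hu : Tendsto u atTop (𝓝 1))
    (h : Tendsto (fun β : ℝ => β ^ (3 / 2 : ℝ) * N β) atTop (𝓝 L)) :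
    Tendsto (fun β : ℝ => β ^ (3 / 2 : ℝ) * N (β * u β)) atTop (𝓝 L) := by
  have h1 := (tendsto_rpow_one hu (-(3 / 2))).mul (h.comp (tendsto_id.atTop_mul_pos one_pos hu))
  rw [one_mul] at h1
  refine h1.congr' ?_
  filter_upwards [eventually_gt_atTop 0, hu.eventually_const_lt one_pos] with β hβ hu0
  simp only [Function.comp, id]
  rw [mul_rpow hβ.le hu0.le, rpow_neg hu0.le]
  have := rpow_pos_of_pos hu0 (3 / 2)
  field_simp

lemma two_shift {N u w : ℝ → ℝ} {a b S : ℝ} (hS : 0 < S) (hu : Tendsto u atTop (𝓝 1))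
    (hw : Tendsto w atTop (𝓝 1))
    (huw : Tendsto (fun β => β * (w β * u β ^ (-(3 / 2 : ℝ)) - 1)) atTop (𝓝 0))
    (h : Tendsto (fun β : ℝ => (β * S) ^ (5 / 2 : ℝ) * (N β - a * (β * S) ^ (-(3 / 2 : ℝ)) -
      b * (β * S) ^ (-(5 / 2 : ℝ)))) atTop (𝓝 0)) :
    Tendsto (fun β : ℝ => (β * S) ^ (5 / 2 : ℝ) * (w β * N (β * u β) -
      a * (β * S) ^ (-(3 / 2 : ℝ)) - b * (β * S) ^ (-(5 / 2 : ℝ)))) atTop (𝓝 0) := by
  have h0 := hw.mul (tendsto_rpow_one hu (-(5 / 2)))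
  have h1 := ((h0.mul (h.comp (tendsto_id.atTop_mul_pos one_pos hu))).add
    (huw.const_mul (a * S))).add ((h0.sub_const 1).const_mul b)
  simp only [mul_zero, mul_one, sub_self, add_zero] at h1
  refine h1.congr' ?_
  filter_upwards [eventually_gt_atTop 0, hu.eventually_const_lt one_pos] with β hβ hu0
  have hx : 0 < β * S := mul_pos hβ hS
  simp only [Function.comp, id]
  rw [mul_right_comm β (u β) S]
  simp only [mul_rpow hx.le hu0.le, rpow_neg hu0.le, rpow_neg hx.le, ← sqrt_pow_three hu0.le,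
    ← sqrt_pow_three hx.le, ← sqrt_pow_five hu0.le, ← sqrt_pow_five hx.le]
  have e : β = √(β * S) ^ 2 / S := by rw [sq_sqrt hx.le]; field_simp
  have p1 := sqrt_pos.2 hx
  have p2 := sqrt_pos.2 hu0
  generalize N (β * u β) = y
  generalize √(β * S) = r at e p1
  generalize √(u β) = v at p2
  generalize w β = z
  rw [e]
  field_simp
  ring

theorem s0524_of (hT : ThermoStmt) (hS : SandStmt) (twoS : ℕ) (hn : 1 ≤ twoS)
    (J : (Fin 3 → ℤ) → ℝ) (hJ0 : J 0 = 0) (hJsymm : ∀ z, J (-z) = J z) (hJpos : ∀ z, 0 ≤ J z)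
    (hJfin : (Function.support J).Finite) (hJgen : AddSubgroup.closure (Function.support J) = ⊤) :
    ∃ (p : ℝ → ℝ → ℝ) (m : ℝ → ℝ), IsPressure 3 twoS J p ∧ IsMagnetization p m ∧
      Tendsto (fun β : ℝ => β ^ (3 / 2 : ℝ) * (spinVal twoS - m β)) atTop
        (𝓝 ((riemannZeta (3 / 2)).re / (8 * Real.pi ^ (3 / 2 : ℝ) *
          Real.sqrt (Matrix.det (Matrix.of fun a b : Fin 3 =>
            spinVal twoS / 2 * ∑ᶠ z : Fin 3 → ℤ, J z * ((z a : ℝ) * (z b : ℝ))))))) := by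
  have hJ : Coup J := ⟨hJ0, hJsymm, hJpos, hJfin, hJgen⟩
  obtain ⟨p, m, hp, hm, -⟩ := hT 3 twoS J (by norm_num) hn hJ
  obtain ⟨β0, -, hβ0⟩ := hS 3 twoS J le_rfl hn hJ p m hp hm
  have h := asy1 twoS J hn hJ
  have h1 := tendsto_one_sub.mul (lead_shift tendsto_one_add h)
  have h2 := (lead_shift tendsto_one_sub h).add tendsto_eta
  rw [one_mul] at h1
  rw [add_zero] at h2
  refine ⟨p, m, hp, hm, tendsto_of_tendsto_of_tendsto_of_le_of_le' h1 h2 ?_ ?_⟩
  · filter_upwards [eventually_ge_atTop β0, eventually_gt_atTop 0] with β hβ h0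
    rw [mul_left_comm]
    exact mul_le_mul_of_nonneg_left (hβ0 β hβ).2.1 (by positivity)
  · filter_upwards [eventually_ge_atTop β0, eventually_gt_atTop 0] with β hβ h0
    refine (mul_le_mul_of_nonneg_left (hβ0 β hβ).2.2 (by positivity)).trans (le_of_eq ?_)
    rw [mul_add, ← rpow_add h0]
    norm_num

theorem s0525_of (hT : ThermoStmt) (hS : SandStmt) (twoS : ℕ) (hn : 1 ≤ twoS) :
    ∃ (p : ℝ → ℝ → ℝ) (m : ℝ → ℝ), IsPressure 3 twoS (nnCoupling 3) p ∧ IsMagnetization p m ∧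
      Tendsto (fun β : ℝ => (β * spinVal twoS) ^ (5 / 2 : ℝ) *
          (spinVal twoS - m β
            - (riemannZeta (3 / 2)).re / (8 * Real.pi ^ (3 / 2 : ℝ)) *
              (β * spinVal twoS) ^ (-(3 / 2 : ℝ))
            - 3 * (riemannZeta (5 / 2)).re / (128 * Real.pi ^ (3 / 2 : ℝ)) *
              (β * spinVal twoS) ^ (-(5 / 2 : ℝ))))
        atTop (𝓝 0) := by
  have hJ := coup_nn 3
  have hs := spinVal_pos hn
  obtain ⟨p, m, hp, hm, -⟩ := hT 3 twoS _ (by norm_num) hn hJ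
  obtain ⟨β0, -, hβ0⟩ := hS 3 twoS _ le_rfl hn hJ p m hp hm
  simp only [nInf_nn] at hβ0
  have h := asy2 twoS hn
  have h1 := two_shift hs tendsto_one_add tendsto_one_sub
    (tendsto_mul_sub_one (f := fun η => (1 - η) * (1 + η) ^ (-(3 / 2 : ℝ)))
      (DifferentiableAt.mul (by fun_prop) (DifferentiableAt.rpow_const (by fun_prop) (by simp)))
      (by simp)) h
  have h2 := (two_shift (w := fun _ => 1) hs tendsto_one_sub tendsto_const_nhds
    (tendsto_mul_sub_one (f := fun η => 1 * (1 - η) ^ (-(3 / 2 : ℝ)))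
      (DifferentiableAt.mul (by fun_prop) (DifferentiableAt.rpow_const (by fun_prop) (by simp)))
      (by simp)) h).add ((tendsto_rpow_neg_atTop (y := 1 / 4) (by norm_num)).const_mul
        (spinVal twoS ^ (5 / 2 : ℝ)))
  rw [mul_zero, add_zero] at h2
  refine ⟨p, m, hp, hm, tendsto_of_tendsto_of_tendsto_of_le_of_le' h1 h2 ?_ ?_⟩
  · filter_upwards [eventually_ge_atTop β0, eventually_gt_atTop 0] with β hβ h0
    have := (hβ0 β hβ).2.1
    gcongr
  · filter_upwards [eventually_ge_atTop β0, eventually_gt_atTop 0] with β hβ h0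
    have h3 := (hβ0 β hβ).2.2
    have h4 : spinVal twoS ^ (5 / 2 : ℝ) * β ^ (-(1 / 4 : ℝ)) =
        (β * spinVal twoS) ^ (5 / 2 : ℝ) * β ^ (-(11 / 4 : ℝ)) := by
      rw [mul_rpow h0.le hs.le, mul_right_comm, ← rpow_add h0, mul_comm]
      norm_num
    rw [h4, ← mul_add]
    gcongr
    linarith

theorem s0526_of (hT : ThermoStmt) (hS : SandStmt) (twoS : ℕ) (hn : 1 ≤ twoS) :
    ∃ (p : ℝ → ℝ → ℝ) (m : ℝ → ℝ), IsPressure 3 twoS (nnCoupling 3) p ∧ IsMagnetization p m ∧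
      Tendsto (fun β : ℝ => (β * spinVal twoS) ^ (5 / 2 : ℝ) *
          (spinVal twoS - m β - idealMagnonDensity 3 twoS β)) atTop (𝓝 0) := by
  obtain ⟨p, m, hp, hm, h⟩ := s0525_of hT hS twoS hn
  refine ⟨p, m, hp, hm, ?_⟩
  have h1 := h.sub (asy2 twoS hn)
  rw [sub_zero] at h1
  exact h1.congr fun β => by ring

end Crest.Agent.N337.Asy
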