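import Crest.Agent.N337.Asy.Basic

/-!
# Row 337: `asy1 : Asy1Stmt` (helper37)
-/

set_option autoImplicit false

namespace Crest.Agent.N337.Asy

open Crest.MathPhysics.SpinModel Filter Topology MeasureTheory Real Matrix

variable {d : ℕ}

lemma rescale (f : (Fin d → ℝ) → ℝ) {r : ℝ} (hr : 0 ≤ r) :
    r ^ d * ∫ p in cube d, f p = ∫ q, (cube d).indicator f (r⁻¹ • q) := by
  rw [Measure.integral_comp_inv_smul_of_nonneg volume _ hr, integral_indicator
    (measurableSet_cube d), Module.finrank_fin_fun, smul_eq_mul]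

lemma eventually_abs_le (x : ℝ) {a : ℝ} (ha : 0 < a) : ∀ᶠ r : ℝ in atTop, |r⁻¹ * x| ≤ a := by
  have h := (tendsto_inv_atTop_zero.mul_const x).abs
  rw [zero_mul, abs_zero] at h
  exact h.eventually_le_const ha

lemma tendsto_sq_one_sub_cos (x : ℝ) :
    Tendsto (fun r : ℝ => r ^ 2 * (1 - cos (r⁻¹ * x))) atTop (𝓝 (x ^ 2 / 2)) := by
  rw [tendsto_iff_norm_sub_tendsto_zero]
  have h := (tendsto_inv_atTop_zero (𝕜 := ℝ)).pow 2 |>.const_mul (x ^ 4 * (5 / 96))
  rw [zero_pow two_ne_zero, mul_zero] at h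
  refine squeeze_zero' (Eventually.of_forall fun _ => norm_nonneg _) ?_ h
  filter_upwards [eventually_abs_le x one_pos, eventually_gt_atTop 0] with r h1 hr
  have h2 := cos_bound h1
  have h3 : r ^ 2 * (1 - cos (r⁻¹ * x)) - x ^ 2 / 2 =
      -(r ^ 2 * (cos (r⁻¹ * x) - (1 - (r⁻¹ * x) ^ 2 / 2))) := by field_simp; ring
  rw [h3, norm_neg, norm_mul, norm_of_nonneg (by positivity), norm_eq_abs]
  calc _ ≤ r ^ 2 * (|r⁻¹ * x| ^ 4 * (5 / 96)) := by gcongr
    _ = _ := by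
      rw [show |r⁻¹ * x| ^ 4 = (r⁻¹ * x) ^ 4 from Even.pow_abs (by decide) _]
      field_simp

lemma eventually_mem_cube (q : Fin d → ℝ) : ∀ᶠ r : ℝ in atTop, r⁻¹ • q ∈ cube d := by
  have h := eventually_all.2 fun a => eventually_abs_le (q a) pi_pos
  filter_upwards [h] with r hr a _
  exact abs_le.1 (hr a)

/-- the stiffness matrix -/
noncomputable def DM (n : ℕ) (J : (Fin d → ℤ) → ℝ) : Matrix (Fin d) (Fin d) ℝ :=
  Matrix.of fun a b => spinVal n / 2 * ∑ᶠ z : Fin d → ℤ, J z * ((z a : ℝ) * (z b : ℝ))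

lemma quad_eq (n : ℕ) {J : (Fin d → ℤ) → ℝ} (hJ : Coup J) (q : Fin d → ℝ) :
    q ⬝ᵥ DM n J *ᵥ q =
      spinVal n * ∑ z ∈ hJ.fin.toFinset, J z * ((∑ a, q a * (z a : ℝ)) ^ 2 / 2) := by
  simp only [dotProduct, mulVec, DM, of_apply, finsum_eq hJ, sq,
    Finset.mul_sum, Finset.sum_mul, Finset.sum_div]
  simp only [Finset.sum_comm (t := hJ.fin.toFinset)]
  refine Finset.sum_congr rfl fun z _ => Finset.sum_congr rfl fun a _ =>
    Finset.sum_congr rfl fun b _ => by ring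

lemma tendsto_eps (n : ℕ) {J : (Fin d → ℤ) → ℝ} (hJ : Coup J) (q : Fin d → ℝ) :
    Tendsto (fun r : ℝ => r ^ 2 * eps n J (r⁻¹ • q)) atTop (𝓝 (q ⬝ᵥ DM n J *ᵥ q)) := by
  rw [quad_eq n hJ]
  refine ((tendsto_finsetSum _ fun z _ => (tendsto_sq_one_sub_cos
    (∑ a, q a * (z a : ℝ))).const_mul (J z)).const_mul (spinVal n)).congr fun r => ?_
  rw [eps_eq n hJ, mul_left_comm, Finset.mul_sum _ _ (r ^ 2)]
  congr 1
  refine Finset.sum_congr rfl fun z _ => ?_
  simp only [Pi.smul_apply, smul_eq_mul, mul_assoc, ← Finset.mul_sum]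
  ring

lemma scaled_lower {e : (Fin d → ℝ) → ℝ} {c : ℝ} (h : ∀ p ∈ cube d, c * ∑ a, p a ^ 2 ≤ e p)
    {r : ℝ} (hr : 0 < r) {q : Fin d → ℝ} (hq : r⁻¹ • q ∈ cube d) :
    c * ∑ a, q a ^ 2 ≤ r ^ 2 * e (r⁻¹ • q) := by
  have h1 := h _ hq
  simp only [Pi.smul_apply, smul_eq_mul, mul_pow, ← Finset.mul_sum] at h1
  calc c * ∑ a, q a ^ 2 = r ^ 2 * (c * (r⁻¹ ^ 2 * ∑ a, q a ^ 2)) := by field_simp
    _ ≤ _ := by gcongr

lemma DM_posDef {n : ℕ} (hn : 1 ≤ n) {J : (Fin d → ℤ) → ℝ} (hJ : Coup J) : (DM n J).PosDef := by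
  obtain ⟨c, hc, h⟩ := eps_lower hn hJ
  refine PosDef.of_dotProduct_mulVec_pos ?_ fun q hq => ?_
  · ext a b
    simp only [DM, conjTranspose_apply, of_apply, star_trivial]
    congr 2
    funext z
    ring
  · rw [star_trivial]
    refine lt_of_lt_of_le ?_ (ge_of_tendsto (b := c * ∑ a, q a ^ 2) (tendsto_eps n hJ q) ?_)
    · obtain ⟨a, ha⟩ := Function.ne_iff.1 hq
      exact mul_pos hc (Finset.sum_pos' (fun a _ => sq_nonneg _) ⟨a, Finset.mem_univ a,
        pow_pos (abs_pos.2 ha) 2 |>.trans_eq (sq_abs _)⟩)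
    · filter_upwards [eventually_mem_cube q, eventually_gt_atTop 0] with r h1 hr
      exact scaled_lower h hr h1

lemma tendsto_II_sq {n : ℕ} (hn : 1 ≤ n) {J : (Fin d → ℤ) → ℝ} (hJ : Coup J) :
    Tendsto (fun r : ℝ => r ^ d * II (eps n J) (r ^ 2)) atTop
      (𝓝 (√π ^ d / √(DM n J).det / (2 * π) ^ d)) := by
  obtain ⟨c, hc, h⟩ := eps_lower hn hJ
  have he := continuous_eps n hJ
  rw [← integral_gauss_mat (DM_posDef hn hJ), ← integral_div]
  refine (tendsto_integral_filter_of_dominated_convergence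
    (F := fun r q => (cube d).indicator (fun p => exp (-(r ^ 2 * eps n J p)) / (2 * π) ^ d)
      (r⁻¹ • q)) (fun q => exp (-(c * ∑ a, q a ^ 2)) / (2 * π) ^ d) ?_ ?_
    ((integrable_gauss hc).div_const _) ?_).congr' ?_
  · refine Eventually.of_forall fun r => Measurable.aestronglyMeasurable ?_
    exact ((Continuous.measurable (by fun_prop)).indicator (measurableSet_cube d)).comp
      (measurable_const_smul _)
  · filter_upwards [eventually_gt_atTop 0] with r hr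
    refine ae_of_all _ fun q => ?_
    by_cases hq : r⁻¹ • q ∈ cube d
    · rw [Set.indicator_of_mem hq, norm_of_nonneg (by positivity)]
      have := scaled_lower h hr hq
      gcongr
    · rw [Set.indicator_of_notMem hq, norm_zero]; positivity
  · refine ae_of_all _ fun q => ?_
    refine ((((continuous_exp.tendsto _).comp (tendsto_eps n hJ q).neg)).div_const
      ((2 * π) ^ d)).congr' ?_
    filter_upwards [eventually_mem_cube q] with r hq
    rw [Set.indicator_of_mem hq]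
    rfl
  · filter_upwards [eventually_ge_atTop 0] with r hr
    exact (rescale _ hr).symm

lemma sqrt_pow_three {t : ℝ} (ht : 0 ≤ t) : √t ^ 3 = t ^ (3 / 2 : ℝ) := by
  rw [sqrt_eq_rpow, ← rpow_natCast, ← rpow_mul ht]; norm_num

lemma tendsto_II {n : ℕ} (hn : 1 ≤ n) {J : (Fin 3 → ℤ) → ℝ} (hJ : Coup J) :
    Tendsto (fun t : ℝ => t ^ (3 / 2 : ℝ) * II (eps n J) t) atTop
      (𝓝 (1 / (8 * π ^ (3 / 2 : ℝ) * √(DM n J).det))) := by
  have h := (tendsto_II_sq hn hJ).comp tendsto_sqrt_atTop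
  have e : √π ^ 3 / √(DM n J).det / (2 * π) ^ 3 = 1 / (8 * π ^ (3 / 2 : ℝ) * √(DM n J).det) := by
    have h1 : 0 < √π := sqrt_pos.2 pi_pos
    have h2 : 0 < √(DM n J).det := sqrt_pos.2 (DM_posDef hn hJ).det_pos
    rw [← sqrt_pow_three pi_pos.le]
    nth_rewrite 2 [← sq_sqrt pi_pos.le]
    field_simp
    norm_num
  rw [e] at h
  refine h.congr' ?_
  filter_upwards [eventually_ge_atTop 0] with t ht
  simp only [Function.comp, sqrt_pow_three ht, sq_sqrt ht]

lemma hasSum_nInf {n : ℕ} (hn : 1 ≤ n) {J : (Fin 3 → ℤ) → ℝ} (hJ : Coup J) {β : ℝ}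
    (hβ : 0 < β) : HasSum (fun j : ℕ => II (eps n J) ((j + 1) * β)) (nInf n J β 0) := by
  obtain ⟨c, hc, h⟩ := eps_lower hn hJ
  simpa only [nInf, add_zero] using hasSum_II (continuous_eps n hJ) hc h hβ

theorem asy1 : Asy1Stmt := by
  intro n J hn hJ
  have h := tendsto_zeta hasSum_zeta3 (tendsto_II hn hJ)
  rw [mul_one_div] at h
  refine h.congr' ?_
  filter_upwards [eventually_gt_atTop 0] with β hβ
  rw [← ((hasSum_nInf hn hJ hβ).mul_left _).tsum_eq]
  refine tsum_congr fun j => ?_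
  have hj : (0 : ℝ) < j + 1 := by positivity
  rw [mul_rpow hj.le hβ.le, rpow_neg hj.le]
  have := rpow_pos_of_pos hj (3 / 2)
  field_simp

end Crest.Agent.N337.Asy
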