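import Crest.Agent.N337.Asy.One

/-!
# Row 337: `asy2 : Asy2Stmt` (helper37)
-/

set_option autoImplicit false

namespace Crest.Agent.N337.Asy

open Crest.MathPhysics.SpinModel Filter Topology MeasureTheory Real

lemma cos_bound4 {x : ℝ} (hx : |x| ≤ 1) :
    |cos x - (1 - x ^ 2 / 2 + x ^ 4 / 24)| ≤ |x| ^ 5 * (1 / 100) := by
  have h := Complex.exp_bound (x := x * Complex.I) (by simpa using hx) (n := 5) (by norm_num)
  have h1 := (Complex.abs_re_le_norm _).trans h
  have h2 : (∑ m ∈ Finset.range 5, ((x : ℂ) * Complex.I) ^ m / (m.factorial : ℂ)) =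
      ((1 - x ^ 2 / 2 + x ^ 4 / 24 : ℝ) : ℂ) + ((x - x ^ 3 / 6 : ℝ) : ℂ) * Complex.I := by
    simp only [Finset.sum_range_succ, Finset.sum_range_zero, Nat.factorial, mul_pow]
    push_cast
    simp only [Complex.I_sq, Complex.I_pow_three]
    ring
  rw [h2, Complex.sub_re, Complex.exp_ofReal_mul_I_re, Complex.add_re, Complex.ofReal_re,
    Complex.re_ofReal_mul, Complex.I_re, mul_zero, add_zero, norm_mul, Complex.norm_I, mul_one,
    Complex.norm_real, norm_eq_abs] at h1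
  refine h1.trans (le_of_eq ?_)
  norm_num [Nat.factorial]

lemma tendsto_quartic (q : ℝ) : Tendsto (fun r : ℝ =>
    r ^ 2 * (q ^ 2 - 2 * r ^ 2 * (1 - cos (r⁻¹ * q)))) atTop (𝓝 (q ^ 4 / 12)) := by
  rw [tendsto_iff_norm_sub_tendsto_zero]
  have h := (tendsto_inv_atTop_zero (𝕜 := ℝ)).const_mul (|q| ^ 5 * (1 / 50))
  rw [mul_zero] at h
  refine squeeze_zero' (Eventually.of_forall fun _ => norm_nonneg _) ?_ h
  filter_upwards [eventually_abs_le q one_pos, eventually_gt_atTop 0] with r h1 hr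
  have h2 := cos_bound4 h1
  have h3 : r ^ 2 * (q ^ 2 - 2 * r ^ 2 * (1 - cos (r⁻¹ * q))) - q ^ 4 / 12 =
      2 * r ^ 4 * (cos (r⁻¹ * q) - (1 - (r⁻¹ * q) ^ 2 / 2 + (r⁻¹ * q) ^ 4 / 24)) := by
    field_simp; ring
  rw [h3, norm_mul, norm_of_nonneg (by positivity), norm_eq_abs]
  calc _ ≤ 2 * r ^ 4 * (|r⁻¹ * q| ^ 5 * (1 / 100)) := by gcongr
    _ = _ := by
      rw [abs_mul, abs_of_pos (inv_pos.2 hr)]
      field_simp
      ring

lemma defect_nonneg (x : ℝ) : 0 ≤ x ^ 2 - 2 * (1 - cos x) := by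
  have := one_sub_sq_div_two_le_cos (x := x)
  linarith

lemma defect_le (x : ℝ) : x ^ 2 - 2 * (1 - cos x) ≤ x ^ 4 := by
  by_cases hx : |x| ≤ 1
  · have h := (abs_le.1 (cos_bound hx)).2
    rw [show |x| ^ 4 = x ^ 4 from Even.pow_abs (by decide) _] at h
    have : 0 ≤ x ^ 4 := by positivity
    linarith
  · have h1 : 1 ≤ x ^ 2 := by rw [← sq_abs]; exact one_le_pow₀ (not_le.1 hx).le
    have h2 := cos_le_one x
    nlinarith

lemma exp_sub_exp_ge (a b : ℝ) : (b - a) * exp (-b) ≤ exp (-a) - exp (-b) := by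
  have h1 : exp (-a) = exp (b - a) * exp (-b) := by rw [← exp_add]; congr 1; ring
  have h2 := mul_le_mul_of_nonneg_right (add_one_le_exp (b - a)) (exp_pos (-b)).le
  linarith

lemma exp_sub_exp_le (a b : ℝ) : exp (-a) - exp (-b) ≤ (b - a) * exp (-a) := by
  have := exp_sub_exp_ge b a
  linarith

lemma integrable_pow_gauss {b : ℝ} (hb : 0 < b) (k : ℕ) :
    Integrable fun x : ℝ => x ^ k * exp (-b * x ^ 2) := by
  have := integrable_rpow_mul_exp_neg_mul_sq hb (s := k) (by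
    have : (0 : ℝ) ≤ k := Nat.cast_nonneg k
    linarith)
  simpa only [rpow_natCast] using this

lemma integral_quartic_gauss : ∫ q : ℝ, q ^ 4 / 12 * exp (-q ^ 2) = √π / 16 := by
  have h1 := integral_comp_abs (f := fun x : ℝ => x ^ 4 / 12 * exp (-x ^ 2))
  simp only [sq_abs, show ∀ x : ℝ, |x| ^ 4 = x ^ 4 from fun x => Even.pow_abs (by decide) _] at h1
  have h2 := integral_rpow_mul_exp_neg_rpow (p := 2) (q := 4) two_pos (by norm_num)
  have h3 : Gamma ((4 + 1) / 2) = 3 / 4 * √π := by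
    rw [show ((4 + 1) / 2 : ℝ) = (1 / 2 + 1) + 1 by norm_num, Gamma_add_one (by norm_num),
      Gamma_add_one (by norm_num), Gamma_one_half_eq]
    ring
  have h4 : ∫ x in Set.Ioi (0 : ℝ), x ^ 4 / 12 * exp (-x ^ 2) =
      (∫ x in Set.Ioi (0 : ℝ), x ^ (4 : ℝ) * exp (-x ^ (2 : ℝ))) / 12 := by
    rw [← integral_div]
    refine integral_congr_ae (ae_of_all _ fun x => ?_)
    simp only [rpow_ofNat]
    ring
  rw [h1, h4, h2, h3]
  ring

/-- the one-dimensional factor -/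
noncomputable def psi (s : ℝ) : ℝ := ∫ k in Set.Icc (-π) π, exp (-(2 * s * (1 - cos k)))

lemma tendsto_psi_sq :
    Tendsto (fun r : ℝ => r ^ 2 * (r * psi (r ^ 2) - √π)) atTop (𝓝 (√π / 16)) := by
  have hb : (0 : ℝ) < 4 / π ^ 2 := by positivity
  have hπ : (4 : ℝ) ≤ π ^ 2 := by nlinarith [pi_gt_three]
  rw [← integral_quartic_gauss]
  refine (tendsto_integral_filter_of_dominated_convergence
    (F := fun r q => r ^ 2 * ((Set.Icc (-π) π).indicator
      (fun k => exp (-(2 * r ^ 2 * (1 - cos k)))) (r⁻¹ * q) - exp (-q ^ 2)))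
    (fun q => q ^ 4 * exp (-(4 / π ^ 2) * q ^ 2) + q ^ 2 * exp (-(4 / π ^ 2) * q ^ 2)) ?_ ?_
    ((integrable_pow_gauss hb 4).add (integrable_pow_gauss hb 2)) ?_).congr' ?_
  · refine Eventually.of_forall fun r => Measurable.aestronglyMeasurable ?_
    refine Measurable.const_mul (Measurable.sub ?_ (by fun_prop)) _
    exact ((Continuous.measurable (by fun_prop)).indicator measurableSet_Icc).comp
      (measurable_const_mul _)
  · filter_upwards [eventually_gt_atTop 0] with r hr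
    refine ae_of_all _ fun q => ?_
    have p1 : 0 ≤ q ^ 4 * exp (-(4 / π ^ 2) * q ^ 2) := by positivity
    have p2 : 0 ≤ q ^ 2 * exp (-(4 / π ^ 2) * q ^ 2) := by positivity
    by_cases hq : r⁻¹ * q ∈ Set.Icc (-π) π
    · rw [Set.indicator_of_mem hq]
      have e1 : q ^ 2 - 2 * r ^ 2 * (1 - cos (r⁻¹ * q)) =
          r ^ 2 * ((r⁻¹ * q) ^ 2 - 2 * (1 - cos (r⁻¹ * q))) := by field_simp
      have h1 := exp_sub_exp_ge (2 * r ^ 2 * (1 - cos (r⁻¹ * q))) (q ^ 2)
      have h2 := exp_sub_exp_le (2 * r ^ 2 * (1 - cos (r⁻¹ * q))) (q ^ 2)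
      rw [e1] at h1 h2
      have h3 := defect_nonneg (r⁻¹ * q)
      have h4 := defect_le (r⁻¹ * q)
      rw [norm_of_nonneg (mul_nonneg (sq_nonneg r) (le_trans (by positivity) h1))]
      have h5 : 4 / π ^ 2 * q ^ 2 ≤ 2 * r ^ 2 * (1 - cos (r⁻¹ * q)) := by
        have h6 := cos_le_one_sub_mul_cos_sq (abs_le.2 hq)
        calc 4 / π ^ 2 * q ^ 2 = 2 * r ^ 2 * (2 / π ^ 2 * (r⁻¹ * q) ^ 2) := by field_simp; ring
          _ ≤ _ := by gcongr; linarith
      calc _ ≤ r ^ 2 * (r ^ 2 * (r⁻¹ * q) ^ 4 * exp (-(4 / π ^ 2 * q ^ 2))) := by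
            gcongr
            refine h2.trans ?_
            gcongr
        _ = q ^ 4 * exp (-(4 / π ^ 2) * q ^ 2) := by rw [neg_mul]; field_simp
        _ ≤ _ := by linarith
    · rw [Set.indicator_of_notMem hq, zero_sub, mul_neg, norm_neg, norm_of_nonneg (by positivity)]
      have h1 : 1 ≤ |r⁻¹ * q| := by
        have := not_le.1 (mt abs_le.1 hq)
        linarith [pi_gt_three]
      have h2 : r ^ 2 ≤ q ^ 2 := by
        rw [abs_mul, abs_of_pos (inv_pos.2 hr), le_inv_mul_iff₀ hr, mul_one] at h1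
        rw [← sq_abs q]; gcongr
      have h3 : 4 / π ^ 2 * q ^ 2 ≤ q ^ 2 :=
        mul_le_of_le_one_left (sq_nonneg q) ((div_le_one (by positivity)).2 hπ)
      calc _ ≤ q ^ 2 * exp (-(4 / π ^ 2 * q ^ 2)) := by gcongr
        _ ≤ _ := by rw [← neg_mul]; linarith
  · refine ae_of_all _ fun q => ?_
    have hA : Tendsto (fun r : ℝ => 2 * r ^ 2 * (1 - cos (r⁻¹ * q))) atTop (𝓝 (q ^ 2)) := by
      have := (tendsto_sq_one_sub_cos q).const_mul 2
      rw [mul_div_cancel₀ _ two_ne_zero] at this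
      simpa only [mul_assoc] using this
    refine tendsto_of_tendsto_of_tendsto_of_le_of_le' ((tendsto_quartic q).mul_const _)
      ((tendsto_quartic q).mul ((continuous_exp.tendsto _).comp hA.neg)) ?_ ?_
    · filter_upwards [eventually_abs_le q pi_pos] with r hq
      rw [Set.indicator_of_mem (Set.mem_Icc.2 (abs_le.1 hq)), mul_assoc (r ^ 2)]
      exact mul_le_mul_of_nonneg_left (exp_sub_exp_ge _ _) (sq_nonneg r)
    · filter_upwards [eventually_abs_le q pi_pos] with r hq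
      rw [Set.indicator_of_mem (Set.mem_Icc.2 (abs_le.1 hq)), mul_assoc (r ^ 2)]
      exact mul_le_mul_of_nonneg_left (exp_sub_exp_le _ _) (sq_nonneg r)
  · filter_upwards [eventually_gt_atTop 0] with r hr
    have h1 : Integrable ((Set.Icc (-π) π).indicator fun k => exp (-(2 * r ^ 2 * (1 - cos k)))) :=
      (Continuous.integrableOn_Icc (by fun_prop)).integrable_indicator measurableSet_Icc
    have h2 : Integrable fun q : ℝ => exp (-q ^ 2) := by
      simpa using integrable_exp_neg_mul_sq one_pos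
    have h3 : ∫ q : ℝ, exp (-q ^ 2) = √π := by simpa using integral_gaussian 1
    rw [integral_const_mul, integral_sub (h1.comp_mul_left' (inv_ne_zero hr.ne')) h2,
      Measure.integral_comp_inv_mul_left, integral_indicator measurableSet_Icc, h3,
      abs_of_pos hr, smul_eq_mul, psi]

lemma II_nn (n : ℕ) (t : ℝ) :
    II (magnonEnergy 3 n) t = psi (t * spinVal n) ^ 3 / (2 * π) ^ 3 := by
  have h := integral_fintype_prod_eq_pow (ι := Fin 3) (μ := volume.restrict (Set.Icc (-π) π))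
    fun k => exp (-(2 * (t * spinVal n) * (1 - cos k)))
  rw [Fintype.card_fin] at h
  rw [II, integral_div, cube, volume_pi, Measure.restrict_pi_pi, psi, ← h]
  congr 2
  funext p
  rw [← exp_sum, magnonEnergy, Finset.sum_neg_distrib, ← Finset.mul_sum]
  congr 2
  ring

/-- the remainder of the two-term expansion -/
noncomputable def rem (s : ℝ) : ℝ := s ^ (5 / 2 : ℝ) * (psi s ^ 3 / (2 * π) ^ 3 -
  1 / (8 * π ^ (3 / 2 : ℝ)) * s ^ (-(3 / 2 : ℝ)) - 3 / (128 * π ^ (3 / 2 : ℝ)) * s ^ (-(5 / 2 : ℝ)))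

lemma sqrt_pow_five {t : ℝ} (ht : 0 ≤ t) : √t ^ 5 = t ^ (5 / 2 : ℝ) := by
  rw [sqrt_eq_rpow, ← rpow_natCast, ← rpow_mul ht]; norm_num

lemma tendsto_rem : Tendsto rem atTop (𝓝 0) := by
  have h1 := tendsto_psi_sq
  have h2 : Tendsto (fun r : ℝ => r * psi (r ^ 2)) atTop (𝓝 √π) := by
    have h3 := (h1.mul ((tendsto_inv_atTop_zero (𝕜 := ℝ)).pow 2)).add_const √π
    rw [zero_pow two_ne_zero, mul_zero, zero_add] at h3
    refine h3.congr' ?_
    filter_upwards [eventually_gt_atTop 0] with r hr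
    field_simp
    ring
  have h4 := (((h1.mul (((h2.pow 2).add (h2.mul_const √π)).add_const (√π ^ 2))).sub_const
    (3 / 16 * √π ^ 3)).div_const ((2 * π) ^ 3)).comp tendsto_sqrt_atTop
  rw [show (√π / 16 * (√π ^ 2 + √π * √π + √π ^ 2) - 3 / 16 * √π ^ 3) / (2 * π) ^ 3 = 0 by
    ring] at h4
  refine h4.congr' ?_
  filter_upwards [eventually_gt_atTop 0] with s hs
  have hr : 0 < √s := sqrt_pos.2 hs
  have hp : 0 < √π := sqrt_pos.2 pi_pos
  simp only [Function.comp, rem, rpow_neg hs.le, ← sqrt_pow_three hs.le, ← sqrt_pow_five hs.le,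
    ← sqrt_pow_three pi_pos.le]
  rw [show psi (√s ^ 2) = psi s by rw [sq_sqrt hs.le]]
  generalize psi s = y
  generalize √s = r at hr
  have hπ := sq_sqrt pi_pos.le
  generalize √π = w at hp hπ
  rw [← hπ]
  field_simp
  ring

theorem asy2 : Asy2Stmt := by
  intro n hn
  have hS := spinVal_pos hn
  have h := (tendsto_zeta hasSum_zeta5 tendsto_rem).comp (tendsto_id.atTop_mul_const hS)
  rw [mul_zero] at h
  refine h.congr' ?_
  filter_upwards [eventually_gt_atTop 0] with β hβ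
  have hx : 0 < β * spinVal n := mul_pos hβ hS
  have h1 := hasSum_nInf hn (coup_nn 3) hβ
  rw [nInf_nn, funext (eps_nn 3 n)] at h1
  have h2 := (((h1.sub (hasSum_zeta3.mul_right
    (1 / (8 * π ^ (3 / 2 : ℝ)) * (β * spinVal n) ^ (-(3 / 2 : ℝ))))).sub (hasSum_zeta5.mul_right
    (3 / (128 * π ^ (3 / 2 : ℝ)) * (β * spinVal n) ^ (-(5 / 2 : ℝ))))).mul_left
    ((β * spinVal n) ^ (5 / 2 : ℝ))).tsum_eq
  refine Eq.trans (Eq.trans (tsum_congr fun j => ?_) h2) (by ring)
  have hj : (0 : ℝ) < j + 1 := by positivity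
  have hj' := rpow_pos_of_pos hj (5 / 2)
  simp only [id, rem, II_nn, mul_assoc ((j : ℝ) + 1), mul_rpow hj.le hx.le]
  rw [← mul_assoc, ← mul_assoc, ← rpow_add hj, neg_add_cancel, rpow_zero]
  ring

end Crest.Agent.N337.Asy
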